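import Vale.Agent.P267.H877.XtCore
import Vale.Agent.P267.H824.Leaf
import Vale.Agent.P267.H456.Assembly

/-!
# P267 / XT-THM: `Asm.XtThm` from the leaves of block A (helper877)
-/

set_option linter.unusedVariables false
set_option linter.unusedSectionVars false

open scoped Manifold ContDiff ComplexConjugate Matrix ComplexOrder Topology
open MeasureTheory Set Filter
open Vale.Agent.P272.K (Cm)

noncomputable section

namespace Vale.Agent.P267.XT

open FL H158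

theorem XTData.RootGap.mono {M : Type} [TopologicalSpace M] [ChartedSpace C2 M] {D : XTData M}
    {s t : ℝ} (h : D.RootGap s) (ht : 0 < t) (hts : t ≤ s) : D.RootGap t where
  pos := ht
  const v h1 h2 h3 := by
    obtain ⟨A, hA⟩ := h3
    refine h.const v h1 h2 ⟨A, fun x => (hA x).trans ?_⟩
    have hA0 : 0 ≤ A := by
      have := (norm_nonneg _).trans (hA x)
      exact nonneg_of_mul_nonneg_left this (Real.exp_pos _)
    apply mul_le_mul_of_nonneg_left _ hA0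
    apply Real.exp_le_exp.2
    exact mul_le_mul_of_nonneg_right hts (abs_nonneg _)
  out v ε h0 hε h1 h2 h3 := by
    obtain ⟨A, hA⟩ := h3
    refine h.out v ε h0 (hε.trans hts) h1 h2 ⟨A, fun x => (hA x).trans ?_⟩
    have hA0 : 0 ≤ A := by
      have := (norm_nonneg _).trans (hA x)
      exact nonneg_of_mul_nonneg_left this (Real.exp_pos _)
    apply mul_le_mul_of_nonneg_left _ hA0
    apply Real.exp_le_exp.2
    rcases le_total 0 (D.f x) with hx | hx
    · exact max_le (le_max_left _ _) ((mul_le_mul_of_nonneg_right hts hx).trans (le_max_right _ _))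
    · refine max_le (le_max_left _ _) (le_trans ?_ (le_max_left _ _))
      exact mul_le_mul_of_nonpos_right hε hx
  inn := h.inn

/-- the leaves of block A -/
structure LeafThms : Prop where
  /-- 378, 181 -/
  nf : ∀ (M : Type) [TopologicalSpace M] [T2Space M] [ConnectedSpace M] [ChartedSpace C2 M]
    [IsManifold 𝓘(ℂ, C2) ω M] (D : XTData M), D.NF
  /-- 759 -/
  root : ∀ (M : Type) [TopologicalSpace M] [T2Space M] [ConnectedSpace M] [ChartedSpace C2 M]
    [IsManifold 𝓘(ℂ, C2) ω M] (D : XTData M), ∃ d, D.RootGap d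
  /-- 359 -/
  t0K : ∀ (M : Type) [TopologicalSpace M] [T2Space M] [ConnectedSpace M] [ChartedSpace C2 M]
    [IsManifold 𝓘(ℂ, C2) ω M] (D : XTData M), D.NF → D.NoFloquetK → D.T0KLeaf
  /-- 359 -/
  t0E : ∀ (M : Type) [TopologicalSpace M] [T2Space M] [ConnectedSpace M] [ChartedSpace C2 M]
    [IsManifold 𝓘(ℂ, C2) ω M] (D : XTData M), D.NF → D.T0ELeaf
  /-- 359 -/
  t0O : ∀ (M : Type) [TopologicalSpace M] [T2Space M] [ConnectedSpace M] [ChartedSpace C2 M]
    [IsManifold 𝓘(ℂ, C2) ω M] (D : XTData M) (d : ℝ), D.NF → D.RootGap d → D.T0OLeaf d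
  /-- 306 -/
  t2 : ∀ (M : Type) [TopologicalSpace M] [T2Space M] [ConnectedSpace M] [ChartedSpace C2 M]
    [IsManifold 𝓘(ℂ, C2) ω M] (D : XTData M), D.T0KLeaf → D.T2Leaf
  /-- 306, 869 -/
  t2s : ∀ (M : Type) [TopologicalSpace M] [T2Space M] [ConnectedSpace M] [ChartedSpace C2 M]
    [IsManifold 𝓘(ℂ, C2) ω M] (D : XTData M), D.T0KLeaf → D.T2sLeaf
  /-- 646 -/
  ex : ∀ (M : Type) [TopologicalSpace M] [T2Space M] [ConnectedSpace M] [ChartedSpace C2 M]
    [IsManifold 𝓘(ℂ, C2) ω M] (D : XTData M), D.T2Leaf → D.T2sLeaf → D.ExLeaf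
  /-- 87 -/
  t1 : ∀ (M : Type) [TopologicalSpace M] [T2Space M] [ConnectedSpace M] [ChartedSpace C2 M]
    [IsManifold 𝓘(ℂ, C2) ω M] (D : XTData M), D.NF → D.T1Leaf
  /-- 706 -/
  fin : ∀ (M : Type) [TopologicalSpace M] [T2Space M] [ConnectedSpace M] [ChartedSpace C2 M]
    [IsManifold 𝓘(ℂ, C2) ω M] (D : XTData M), D.FinLeaf

/-- Riemann-Roch inputs on all finite cyclic covers (221, 868, 662) -/
def RRInThm : Prop :=
  ∀ (X : Type) [TopologicalSpace X] [T2Space X] [CompactSpace X] [ConnectedSpace X]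
    [ChartedSpace (Cm 2) X] [IsManifold 𝓘(ℂ, Cm 2) ω X] (n : ℕ), IsMinimalVII X n → Asm.Nef X →
    ∀ (B : Asm.Base X), (∀ (m : ℕ) [NeZero m], BlockC.SurfIn (CovM B.hh m) (m * n)) →
    ∀ (m : ℕ) [NeZero m], H824.RRIn (CovM B.hh m)

/-- no Floquet sections of `K` (417) -/
def NoFlThm : Prop :=
  ∀ (X : Type) [TopologicalSpace X] [T2Space X] [CompactSpace X] [ConnectedSpace X]
    [ChartedSpace (Cm 2) X] [IsManifold 𝓘(ℂ, Cm 2) ω X] (n : ℕ), IsMinimalVII X n → Asm.Nef X →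
    ∀ (B : Asm.Base X), (∀ (m : ℕ) [NeZero m], BlockC.SurfIn (CovM B.hh m) (m * n)) →
    B.D.NoFloquetK

/-- `a_in(α) = 0` (466) -/
def AinThm : Prop :=
  ∀ (X : Type) [TopologicalSpace X] [T2Space X] [CompactSpace X] [ConnectedSpace X]
    [ChartedSpace (Cm 2) X] [IsManifold 𝓘(ℂ, Cm 2) ω X] (n : ℕ), IsMinimalVII X n → Asm.Nef X →
    ∀ (B : Asm.Base X), (∀ (m : ℕ) [NeZero m], BlockC.SurfIn (CovM B.hh m) (m * n)) →
    ∀ (E : BlockC.ALB (Cov B.hh)) (i₀ : E.ι) (R : ℝ), Asm.GoodLB B E i₀ R →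
    ∀ (a : Cov B.hh → Fin 2 → ℂ) (N : ℝ), 0 < N → B.D.EndTriv E.L i₀ a R N →
      B.D.AinLeaf E.L i₀ a

/-- **XT-THM.** -/
theorem xtThm (hl : LeafThms) (hRR : RRInThm) (hNo : NoFlThm) (hAin : AinThm) : Asm.XtThm := by
  intro X _ _ _ _ _ _ n hX hN B hS E i₀ R hE
  have : LocallyConnectedSpace X := ChartedSpace.locallyConnectedSpace (Cm 2) X
  have : ConnectedSpace (Cov B.hh) := Cov.connectedSpace B.prim
  have hNF := hl.nf _ B.D
  have hNoF := hNo X n hX hN B hS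
  have hY := hRR X n hX hN B hS
  obtain ⟨d₀, hd₀⟩ := hl.root _ B.D
  have hK := hl.t0K _ B.D hNF hNoF
  have h2 := hl.t2 _ B.D hK
  have htriv : ∀ x, R ≤ |B.D.f x| → E.L.P x = Matrix.single i₀ i₀ 1 := fun x hx =>
    hE.triv x (by rwa [B.f_eq] at hx)
  exact XTData.exists_xtCone (fun t ht hts => hd₀.mono ht hts) hd₀.pos hK (hl.t0E _ B.D hNF)
    (hl.t0O _ B.D d₀ hNF hd₀) h2 (hl.ex _ B.D h2 (hl.t2s _ B.D hK)) (hl.t1 _ B.D hNF)
    (hl.fin _ B.D) E.L i₀ R htriv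
    (H824.h1Leaf_good B.D B.γ_eq B.f_eq hY E.L i₀ R hE.per)
    (H824.h1Leaf_good_dual B.D B.γ_eq B.f_eq hY E.L i₀ R hE.per)
    (H824.h1Leaf_triv B.D B.γ_eq B.f_eq hY i₀ R)
    (fun a N hN' hEa => hAin X n hX hN B hS E i₀ R hE a N hN' hEa)

end Vale.Agent.P267.XT
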