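import Vale.Agent.P267.H877.XtThm2
import Vale.Agent.P267.H417.NoFl
import Vale.Agent.P267.H466.AinThm
import Vale.Agent.P267.H646.Ex

/-!
# P267 / XT-THM: all finished inputs plugged in (helper877)

`xtThm_of` : `Asm.XtThm` from XA-T2 (`T2Thm`: 306, 869; `T2sThm`: 667) and Riemann-Roch on the
finite cyclic covers (`RRInThm`: 682 from 221's block).
-/

set_option linter.unusedVariables false
set_option linter.unusedSectionVars false

open scoped Manifold ContDiff ComplexConjugate Matrix ComplexOrder Topology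
open MeasureTheory Set Filter

noncomputable section

namespace Vale.Agent.P267.XT

open FL H158

/-- XA-T2 -/
def T2Thm : Prop :=
  ∀ (M : Type) [TopologicalSpace M] [T2Space M] [ConnectedSpace M] [ChartedSpace C2 M]
    [IsManifold 𝓘(ℂ, C2) ω M] (D : XTData M), D.T0KLeaf → D.T2Leaf

/-- XA-T2, scalar version -/
def T2sThm : Prop :=
  ∀ (M : Type) [TopologicalSpace M] [T2Space M] [ConnectedSpace M] [ChartedSpace C2 M]
    [IsManifold 𝓘(ℂ, C2) ω M] (D : XTData M), D.T2Leaf → D.T2sLeaf

theorem restThms (h : T2Thm) (hs : T2sThm) : RestThms where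
  t2 M _ _ _ _ _ D := h M D
  t2s M _ _ _ _ _ D := hs M D
  ex M _ _ _ _ _ D h1 h2 := H646.exLeaf D h1 h2

theorem leafThms_of (h : T2Thm) (hs : T2sThm) : LeafThms := leafThms (restThms h hs)

/-- **XT-THM** modulo XA-T2 and Riemann-Roch. -/
theorem xtThm_of (h : T2Thm) (hs : T2sThm) (hRR : RRInThm) : Asm.XtThm :=
  xtThm (leafThms_of h hs) hRR H417.noFlThm H466.ainThm

end Vale.Agent.P267.XT
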