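import Vale.Agent.P267.H877.XtFin
import Vale.Agent.P267.H667.T2s
import Vale.Agent.P267.H682.RRInX

/-!
# P267 / XT-THM: T2s (667) and Riemann-Roch on the finite cyclic covers (682) plugged in
(helper877)

`xtThm_rr`: `Asm.XtThm` from `T2Thm` (306, 869) and 221's `RRBlock` with `PSThm`, `FRThm`.
-/

set_option linter.unusedVariables false
set_option linter.unusedSectionVars false

open scoped Manifold ContDiff ComplexConjugate Matrix ComplexOrder Topology
open MeasureTheory Set Filter

noncomputable section

namespace Vale.Agent.P267.XT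

open FL H158

/-- the scalar version of XA-T2 (helper667) -/
theorem t2sThm : T2sThm := fun M _ _ _ _ _ D h => H667.t2sLeaf D h

theorem leafThms_t2 (h : T2Thm) : LeafThms := leafThms_of h t2sThm

/-- **XT-THM** from XA-T2 (degree two) and Riemann-Roch on the covers. -/
theorem xtThm_t2 (h : T2Thm) (hRR : RRInThm) : Asm.XtThm := xtThm_of h t2sThm hRR

/-- **XT-THM** from XA-T2 and the Riemann-Roch block. -/
theorem xtThm_rr (h : T2Thm) (hRR : RR.RRBlock) (hP : H682.PSThm) (hF : H682.FRThm) :
    Asm.XtThm :=
  xtThm_t2 h (H682.rrInThm_ps hRR hP hF)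

end Vale.Agent.P267.XT
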