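import Vale.Agent.P267.H877.XtThm
import Vale.Agent.P267.H359.Leaf
import Vale.Agent.P267.H87.T1
import Vale.Agent.P267.H706.Leaf
import Vale.Agent.P267.H378.NFthm
import Vale.Agent.P267.H759.XT
import Vale.Agent.P267.H417.KK

/-!
# P267 / XT-THM: the finished leaves plugged in (helper877)

Remaining inputs of `Asm.XtThm`: degree 2 (`T2Leaf`), `ExLeaf`, Riemann-Roch on the finite cyclic
covers (`RRInThm`), `a_in = 0` (`AinThm`).
-/

set_option linter.unusedVariables false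
set_option linter.unusedSectionVars false

open scoped Manifold ContDiff ComplexConjugate Matrix ComplexOrder Topology
open MeasureTheory Set Filter
open Vale.Agent.P272.K (Cm)

noncomputable section

namespace Vale.Agent.P267.XT

open FL H158

theorem nfThm (M : Type) [TopologicalSpace M] [T2Space M] [ConnectedSpace M] [ChartedSpace C2 M]
    [IsManifold 𝓘(ℂ, C2) ω M] (D : XTData M) : D.NF := H378.nf D

theorem rootThm (M : Type) [TopologicalSpace M] [T2Space M] [ConnectedSpace M] [ChartedSpace C2 M]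
    [IsManifold 𝓘(ℂ, C2) ω M] (D : XTData M) : ∃ d, D.RootGap d := H759.rootGap D

theorem t0KThm (M : Type) [TopologicalSpace M] [T2Space M] [ConnectedSpace M] [ChartedSpace C2 M]
    [IsManifold 𝓘(ℂ, C2) ω M] (D : XTData M) (h : D.NoFloquetK) : D.T0KLeaf := H359.t0KLeaf D h

theorem t0EThm (M : Type) [TopologicalSpace M] [T2Space M] [ConnectedSpace M] [ChartedSpace C2 M]
    [IsManifold 𝓘(ℂ, C2) ω M] (D : XTData M) : D.T0ELeaf := H359.t0ELeaf D

theorem t0OThm (M : Type) [TopologicalSpace M] [T2Space M] [ConnectedSpace M] [ChartedSpace C2 M]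
    [IsManifold 𝓘(ℂ, C2) ω M] (D : XTData M) (d : ℝ) (h : D.RootGap d) : D.T0OLeaf d :=
  H359.t0OLeaf D h

theorem t1Thm (M : Type) [TopologicalSpace M] [T2Space M] [ConnectedSpace M] [ChartedSpace C2 M]
    [IsManifold 𝓘(ℂ, C2) ω M] (D : XTData M) : D.T1Leaf := by
  intro ι _ _ L i₀ a R N m₀ Lm am δ r hN hE hP h0 h2 h1
  obtain ⟨C0, -, h0⟩ := h0
  obtain ⟨C2, -, h2⟩ := h2
  exact H87.t1 D hE hN hP (H378.nf D) ⟨C0, h0⟩ ⟨C2, h2⟩ h1

/-- the remaining leaves -/
structure RestThms : Prop where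
  /-- 306, 869 -/
  t2 : ∀ (M : Type) [TopologicalSpace M] [T2Space M] [ConnectedSpace M] [ChartedSpace C2 M]
    [IsManifold 𝓘(ℂ, C2) ω M] (D : XTData M), D.T0KLeaf → D.T2Leaf
  /-- 667 -/
  t2s : ∀ (M : Type) [TopologicalSpace M] [T2Space M] [ConnectedSpace M] [ChartedSpace C2 M]
    [IsManifold 𝓘(ℂ, C2) ω M] (D : XTData M), D.T2Leaf → D.T2sLeaf
  /-- 646 -/
  ex : ∀ (M : Type) [TopologicalSpace M] [T2Space M] [ConnectedSpace M] [ChartedSpace C2 M]
    [IsManifold 𝓘(ℂ, C2) ω M] (D : XTData M), D.T2Leaf → D.T2sLeaf → D.ExLeaf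

theorem leafThms (h : RestThms) : LeafThms where
  nf M _ _ _ _ _ D := nfThm M D
  root M _ _ _ _ _ D := rootThm M D
  t0K M _ _ _ _ _ D _ hK := t0KThm M D hK
  t0E M _ _ _ _ _ D _ := t0EThm M D
  t0O M _ _ _ _ _ D d _ hr := t0OThm M D d hr
  t2 M _ _ _ _ _ D := h.t2 M D
  t2s M _ _ _ _ _ D hK := h.t2s M D (h.t2 M D hK)
  ex M _ _ _ _ _ D := h.ex M D
  t1 M _ _ _ _ _ D _ := t1Thm M D
  fin M _ _ _ _ _ D := H706.finLeaf D

end Vale.Agent.P267.XT
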